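import Crest.Agent.X262.Bun6.Lin

/-!
# Row 262, SURF / BUNDLE (helper6), part 2: the second Chern character of a flag

* `diamond` : exchange of two neighbouring rows;
* `flagStmt`.
-/

set_option autoImplicit false

noncomputable section

namespace Crest.Agent.X262.Bun

open Crest.Agent.X277 Crest.Agent.X277.BD Crest.Agent.X262.Surf Finset
open Crest.Agent.X277.BD.Cyc (plV)

variable {F : Type} [Field F] {n r k : ℕ} {Λ Λ' : ℕ → Fin n → F}

theorem dt_mul {T : ℕ → ℕ → F} (h : ∀ i < k, ∀ j, Λ' i j = ∑ a ∈ range k, T i a * Λ a j)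
    (c : Fin k → Fin n) : dt Λ' k c = (Matrix.of fun i a : Fin k => T i a).det * dt Λ k c := by
  rw [dt, dt, ← Matrix.det_mul]
  congr 1
  ext i j
  simp [Matrix.mul_apply, h i i.2, sum_range]

/-- the span of the first rows -/
def Sp (Λ : ℕ → Fin n → F) (r : ℕ) : Submodule F (Fin n → F) := Submodule.span F (Λ '' Set.Iio r)

theorem mem_Sp {i : ℕ} (h : i < r) : Λ i ∈ Sp Λ r := Submodule.subset_span ⟨i, h, rfl⟩

theorem exists_T (h : ∀ i < k, Λ' i ∈ Sp Λ k) :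
    ∃ T : ℕ → ℕ → F, ∀ i < k, ∀ j, Λ' i j = ∑ a ∈ range k, T i a * Λ a j := by
  have h1 : ∀ x ∈ Sp Λ k, ∃ t : ℕ → F, ∀ j, x j = ∑ a ∈ range k, t a * Λ a j := fun x hx => by
    induction hx using Submodule.span_induction with
    | mem x h =>
      obtain ⟨i, hi, rfl⟩ := h
      exact ⟨Pi.single i 1, fun j => by simp [Pi.single_apply, Set.mem_Iio.1 hi]⟩
    | zero => exact ⟨0, by simp⟩
    | add x y _ _ h h' =>
      obtain ⟨t, h⟩ := h
      obtain ⟨t', h'⟩ := h'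
      exact ⟨t + t', fun j => by simp [h, h', add_mul, sum_add_distrib]⟩
    | smul c x _ h =>
      obtain ⟨t, h⟩ := h
      exact ⟨c • t, fun j => by simp [h, mul_sum, mul_assoc]⟩
  choose! T hT using fun i hi => h1 _ (h i hi)
  exact ⟨T, hT⟩

theorem rk_of_Sp (hk : Rk Λ' k) (h : ∀ i < k, Λ' i ∈ Sp Λ k) : Rk Λ k := by
  obtain ⟨T, hT⟩ := exists_T h
  exact hk.imp fun c hc => right_ne_zero_of_mul ((dt_mul hT c).symm.trans_ne hc)

/-- exchange of two neighbouring rows -/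
def sw (r : ℕ) (Λ : ℕ → Fin n → F) : ℕ → Fin n → F := fun i => Λ (Equiv.swap r (r + 1) i)

theorem swap_lt {i : ℕ} (hr : r + 1 < k) (hi : i < k) : Equiv.swap r (r + 1) i < k := by
  rw [Equiv.swap_apply_def]
  split_ifs <;> omega

omit [Field F] in
theorem sw_lt {i : ℕ} (hi : i < r) : sw r Λ i = Λ i := by
  rw [sw, Equiv.swap_apply_of_ne_of_ne hi.ne (by omega)]

theorem rk_sw (hk : Rk Λ k) (hr : r + 1 < k) : Rk (sw r Λ) k :=
  rk_of_Sp hk fun i hi => by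
    have := mem_Sp (Λ := sw r Λ) (swap_lt hr hi)
    rwa [sw, Equiv.swap_apply_self] at this

variable [Algebra ℂ F]

theorem lin_Dm (hk : Rk Λ' k) (h : ∀ i < k, Λ' i ∈ Sp Λ k) : Lin (Dm Λ' k) (Dm Λ k) := by
  obtain ⟨T, hT⟩ := exists_T h
  obtain ⟨c, hc⟩ := id hk
  have h0 := left_ne_zero_of_mul ((dt_mul hT c).symm.trans_ne hc)
  refine ⟨_, h0, ?_⟩
  rw [Dm, Dm, ← mxf_mul (rk_of_Sp hk h) h0]
  exact congrArg (mxf ℂ) (funext (dt_mul hT))

omit [Algebra ℂ F] in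
theorem dl_sub' {s : ℕ} (hs : s ≤ r) (c : Fin (r + 1) → Fin n) (a : Fin n → F) (μ : ℕ → F) :
    dl Λ r c (a - ∑ i ∈ range s, μ i • Λ i) = dl Λ r c a := by
  rw [map_sub, map_sum, sum_eq_zero, sub_zero]
  intro i hi
  rw [map_smul, dl_row c ((mem_range.1 hi).trans_le hs), smul_zero]

omit [Algebra ℂ F] in
theorem dt_sw (c : Fin (r + 1) → Fin n) : dt (sw r Λ) (r + 1) c = dl Λ r c (Λ (r + 1)) := by
  rw [dt_succ, dl_congr fun i hi => sw_lt hi, sw, Equiv.swap_apply_left]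

/-- submodularity -/
theorem Dm_add_le (hk : Rk Λ (r + 2)) :
    Dm Λ r + Dm Λ (r + 2) ≤ Dm (sw r Λ) (r + 1) + Dm Λ (r + 1) := fun V => by
  obtain ⟨c, hc⟩ := exists_dt hk.of_succ.of_succ V
  obtain ⟨c', hc'⟩ := exists_dt hk V
  obtain ⟨μ, hμ⟩ := exists_red (ne_of_val hc) (Λ (r + 1))
  rw [val_add, val_add, ← hc', dt_succ, ← dl_sub' r.le_succ c' _ μ, mul_comm,
    ← le_div_iff₀ (val_pos _ V), mul_comm, mul_div_assoc]
  refine dl_le c' fun j => ?_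
  rw [le_div_iff₀ (val_pos _ V), ← hc, ← map_mul, hμ, ← dt_sw]
  exact dt_le _ _ V

theorem exists_ratio (hk : Rk Λ (r + 2)) {U : RZ ℂ F}
    (h : (Dm Λ r + Dm Λ (r + 2)).val U < (Dm (sw r Λ) (r + 1) + Dm Λ (r + 1)).val U) :
    ∃ g : F, ∀ V : RZ ℂ F, V.1 ≤ U.1 →
      (Dm (sw r Λ) (r + 1)).val V = V.v g * (Dm Λ (r + 1)).val V := by
  obtain ⟨μ, hμ⟩ := exists_Red' hk.of_succ U
  refine ⟨μ r, fun V hV => ?_⟩
  obtain ⟨c₁, h1⟩ := exists_dt (rk_sw hk (Nat.lt_succ_self _)).of_succ V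
  have h2 : ∀ c, V.v (dt (sw r Λ) (r + 1) c - μ r * dt Λ (r + 1) c) <
      (Dm (sw r Λ) (r + 1)).val V := fun c => by
    rw [← h1]
    refine not_le.1 fun h3 => ?_
    have h4 := RZ.le_of_le hV h3
    rw [val_of_le hV h1, dt_sw, dt_succ, ← smul_eq_mul, ← map_smul, ← map_sub,
      ← dl_sub c _ μ, sub_sub, add_comm (μ r • Λ r), ← sum_range_succ fun i => μ i • Λ i] at h4
    have h5 := h4.trans (dl_le c hμ)
    rw [Nm, val_sub, ← mul_div_assoc, le_div_iff₀ (val_pos _ U)] at h5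
    exact h.not_ge h5
  refine le_antisymm ?_ ?_
  · have h3 := V.v.map_sub_eq_of_lt_left (h1 ▸ h2 c₁)
    rw [sub_sub_cancel, map_mul, h1] at h3
    exact h3 ▸ mul_le_mul' le_rfl (dt_le _ _ V)
  · obtain ⟨c, hc⟩ := exists_dt hk.of_succ V
    rw [← hc, ← map_mul, ← sub_sub_cancel (dt (sw r Λ) (r + 1) c) (μ r * _)]
    exact V.v.map_sub_le (dt_le _ _ V) (h2 c).le

variable [Algebra.EssFiniteType ℂ F]

theorem dg_of_triv {U : RZ ℂ F} (hU : Pst.Dvs U) {a : BD ℂ F}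
    (h : ∀ V : RZ ℂ F, V.1 ≤ U.1 → a.val V = 1) : Geo.dg U [a] = 0 := by
  have := Geo.essFT_Rf hU
  have h1 : a.val (plV U).V = 1 := h U le_rfl
  have h2 : (plV U).res a = 0 := ext' fun W => by
    rw [Pl.val_res (g := 1) h1 (by rw [map_one, h _ (Pl.cm_le W)]), Pl.r_one, map_one, val_zero]
  rw [Geo.dg_eq, List.map_cons, (Pl.lin_rs_res h1).bnum_eq, h2, bnum_zero]

theorem diamond (hk : Rk Λ (r + 2)) :
    bnum [Dm (sw r Λ) (r + 1) + Dm Λ (r + 1) - (Dm Λ r + Dm Λ (r + 2)),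
      Dm (sw r Λ) (r + 1) - Dm Λ (r + 1)] = 0 := by
  refine Geo.bnum_eq_zero fun U hU h0 => ?_
  rw [map_sub, sub_ne_zero, Ne, Geo.od_eq_iff hU] at h0
  obtain ⟨g, hg⟩ := exists_ratio hk ((Dm_add_le hk U).lt_of_ne' h0)
  have g0 : g ≠ 0 := fun h => val_ne _ U ((hg U le_rfl).trans (by rw [h, map_zero, zero_mul]))
  rw [← sub_add_cancel (Dm (sw r Λ) (r + 1) - Dm Λ (r + 1)) (pr ℂ g), Geo.dg_add, Geo.dg_pr,
    add_zero]
  refine dg_of_triv hU fun V hV => ?_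
  rw [val_sub, val_sub, hg V hV, val_pr g0, mul_div_cancel_right₀ _ (val_ne _ V),
    div_self (RZ.ne_zero_iff.2 g0)]

/-- twice the second Chern character -/
def ch (Λ : ℕ → Fin n → F) (k : ℕ) : ℤ := ∑ r ∈ range k, bnum [Nm Λ r, Nm Λ r]

theorem sq_lin {a a' : BD ℂ F} (h : Lin a a') : bnum [a, a] = bnum [a', a'] := by
  rw [h.bnum_eq, bnum_swap, h.bnum_eq]

omit [Algebra.EssFiniteType ℂ F] in
theorem lin_Nm (h : Lin (Dm Λ' r) (Dm Λ r)) (h' : Lin (Dm Λ' (r + 1)) (Dm Λ (r + 1))) :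
    Lin (Nm Λ' r) (Nm Λ r) := by
  rw [Nm, Nm, sub_eq_add_neg, sub_eq_add_neg]
  exact h'.add h.neg

theorem ch_tri (hk : Rk Λ' k) (h : ∀ i < k, Λ' i ∈ Sp Λ (i + 1)) : ch Λ' k = ch Λ k := by
  have h1 : ∀ r ≤ k, Lin (Dm Λ' r) (Dm Λ r) := fun r hr => lin_Dm (hk.of_le hr) fun i hi =>
    Submodule.span_mono (Set.image_mono (Set.Iio_subset_Iio hi)) (h i (hi.trans_le hr))
  exact sum_congr rfl fun r hr =>
    sq_lin (lin_Nm (h1 r (mem_range.1 hr).le) (h1 _ (mem_range.1 hr)))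

theorem sq_dia {a a' x y : BD ℂ F} (h2 : bnum [a + a' - (x + y), a - a'] = 0) :
    bnum [a - x, a - x] + bnum [y - a, y - a] = bnum [a' - x, a' - x] + bnum [y - a', y - a'] := by
  simp only [bnum_sub, bnum_add, bnum_sub2, bnum_swap a' a, bnum_swap x a, bnum_swap y a,
    bnum_swap x a', bnum_swap y a'] at h2 ⊢
  omega

theorem sum_two {f g : ℕ → ℤ} (hr : r + 1 < k) (h : f r + f (r + 1) = g r + g (r + 1))
    (h' : ∀ s < k, s ≠ r → s ≠ r + 1 → f s = g s) : ∑ s ∈ range k, f s = ∑ s ∈ range k, g s := by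
  have h3 : r ∈ range k := mem_range.2 (by omega)
  have h4 : r + 1 ∈ (range k).erase r := mem_erase.2 ⟨by omega, mem_range.2 hr⟩
  rw [← add_sum_erase _ f h3, ← add_sum_erase _ g h3, ← add_sum_erase _ f h4,
    ← add_sum_erase _ g h4, ← add_assoc, ← add_assoc, h, sum_congr rfl fun s hs => ?_]
  simp only [mem_erase, mem_range] at hs
  exact h' s hs.2.2 hs.2.1 hs.1

theorem ch_sw (hk : Rk Λ k) (hr : r + 1 < k) : ch (sw r Λ) k = ch Λ k := by
  have h1 : ∀ s ≤ k, s ≠ r + 1 → Lin (Dm (sw r Λ) s) (Dm Λ s) := fun s hs h => by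
    rcases h.lt_or_gt with h | h
    · rw [Dm_congr fun i hi => sw_lt (by omega)]
      exact Lin.rfl
    · exact lin_Dm ((rk_sw hk hr).of_le hs) fun i hi => mem_Sp (swap_lt h hi)
  refine sum_two hr ?_ fun s hs h h' => sq_lin (lin_Nm (h1 s hs.le h') (h1 _ hs (by omega)))
  have h5 : Lin (Nm (sw r Λ) (r + 1)) (Dm Λ (r + 2) - Dm (sw r Λ) (r + 1)) := by
    rw [Nm, sub_eq_add_neg, sub_eq_add_neg]
    exact (h1 _ hr (by omega)).add Lin.rfl
  rw [sq_lin h5, Nm, Dm_congr (Λ' := sw r Λ) (r := r) fun i hi => sw_lt hi]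
  exact sq_dia (diamond (hk.of_le hr))

theorem ch_tv (c : F) : ∀ j < k, ∀ i < k, i ≠ j → ∀ Λ Λ' : ℕ → Fin n → F, Rk Λ k → Rk Λ' k →
    (∀ l < k, l ≠ i → Λ' l = Λ l) → Λ' i = Λ i + c • Λ j → ch Λ' k = ch Λ k := by
  have key : ∀ j i, j < i → ∀ Λ Λ' : ℕ → Fin n → F, Rk Λ' k → (∀ l < k, l ≠ i → Λ' l = Λ l) →
      Λ' i = Λ i + c • Λ j → ch Λ' k = ch Λ k := fun j i h Λ Λ' h1 h2 h3 =>
    ch_tri h1 fun l hl => by
      rcases eq_or_ne l i with rfl | h4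
      · exact h3 ▸ add_mem (mem_Sp l.lt_succ_self) (Submodule.smul_mem _ _ (mem_Sp (by omega)))
      · exact h2 l hl h4 ▸ mem_Sp l.lt_succ_self
  intro j
  induction j with
  | zero => exact fun _ i _ h Λ Λ' _ => key 0 i (by omega) Λ Λ'
  | succ r ih =>
    intro hr i hi h Λ Λ' h0 h1 h2 h3
    rw [← ch_sw h0 hr, ← ch_sw h1 hr]
    refine ih (by omega) _ (swap_lt hr hi) (fun h4 => h ?_) _ _ (rk_sw h0 hr) (rk_sw h1 hr)
      (fun l hl h4 => h2 _ (swap_lt hr hl) fun h5 => h4 ?_) ?_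
    · rw [← Equiv.swap_apply_self r (r + 1) i, h4, Equiv.swap_apply_left]
    · rw [← h5, Equiv.swap_apply_self]
    · simp only [sw, Equiv.swap_apply_self, Equiv.swap_apply_left, h3]

theorem ch_mul (T : Matrix (Fin k) (Fin k) F) (hT : T.det ≠ 0) : ∀ Λ Λ' : ℕ → Fin n → F, Rk Λ k →
    Rk Λ' k → (∀ i : Fin k, Λ' i = ∑ a, T i a • Λ a) → ch Λ' k = ch Λ k := by
  classical
  refine Matrix.diagonal_transvection_induction_of_det_ne_zero (fun T => ∀ Λ Λ' : ℕ → Fin n → F,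
    Rk Λ k → Rk Λ' k → (∀ i : Fin k, Λ' i = ∑ a, T i a • Λ a) → ch Λ' k = ch Λ k) T hT
    (fun D _ Λ Λ' _ h1 h2 => ch_tri h1 fun i hi => ?_) (fun t Λ Λ' h0 h1 h2 => ?_)
    fun A B _ hB ihA ihB Λ Λ' h0 h1 h2 => ?_
  · rw [h2 ⟨i, hi⟩, sum_eq_single ⟨i, hi⟩ (fun a _ ha => by simp [Matrix.diagonal_apply_ne' _ ha])
      (by simp)]
    exact Submodule.smul_mem _ _ (mem_Sp i.lt_succ_self)
  · refine ch_tv t.c t.j t.j.2 t.i t.i.2 (fun h => t.hij (Fin.ext h)) Λ Λ' h0 h1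
      (fun l hl h => ?_) ?_
    · have h3 : t.i ≠ ⟨l, hl⟩ := fun h3 => h (congrArg Fin.val h3).symm
      simpa [Matrix.TransvectionStruct.toMatrix, Matrix.transvection, Matrix.one_apply,
        Matrix.single_apply, h3] using h2 ⟨l, hl⟩
    · simpa [Matrix.TransvectionStruct.toMatrix, Matrix.transvection, Matrix.one_apply,
        Matrix.single_apply, add_smul, sum_add_distrib] using h2 t.i
  · let Λ₁ : ℕ → Fin n → F := fun i => if h : i < k then ∑ a, B ⟨i, h⟩ a • Λ a else 0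
    have h3 : ∀ i : Fin k, Λ₁ i = ∑ a, B i a • Λ a := fun i => dif_pos i.2
    have h4 : ∀ i : Fin k, Λ' i = ∑ a, A i a • Λ₁ a := fun i => by
      simp only [h2, h3, Matrix.mul_apply, sum_smul, smul_sum, smul_smul]
      exact sum_comm
    have h5 : Rk Λ₁ k := rk_of_Sp h1 fun i hi =>
      h4 ⟨i, hi⟩ ▸ sum_mem fun a _ => Submodule.smul_mem _ _ (mem_Sp a.2)
    exact (ihA Λ₁ Λ' h5 h1 h4).trans (ihB Λ Λ₁ h0 h5 h3)

/-- **the flag does not matter** -/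
theorem flagStmt : FlagStmt := by
  intro F _ _ _ n k Λ Λ' T _ h h' hT
  have h1 : ∀ i < k, Λ' i = ∑ a ∈ range k, T i a • Λ a := fun i hi => funext fun j => by
    simp [hT i hi j]
  obtain ⟨c, hc⟩ := id h'
  exact ⟨lin_Dm h' fun i hi => h1 i hi ▸ sum_mem fun a ha =>
      Submodule.smul_mem _ _ (mem_Sp (mem_range.1 ha)),
    ch_mul _ (left_ne_zero_of_mul ((dt_mul hT c).symm.trans_ne hc)) Λ Λ' h h' fun i => by
      rw [h1 i i.2, sum_range]; rfl⟩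

end Crest.Agent.X262.Bun
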