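import Crest.Agent.X262.Surf.Bas

/-!
# Row 262, SURF / BUNDLE (helper6), part 1: minors and lattices at a valuation

* `dt Λ r c` : a minor; `dl Λ r c a` : the minor with last row `a`; `cof` : its cofactors;
* `exists_red` : the reduced last row;
* `In Λ r γ v` : `v` lies in the lattice of the columns; `In.red_le`, `in_succ`.
-/

set_option autoImplicit false

noncomputable section

namespace Crest.Agent.X262.Bun

open Crest.Agent.X277 Crest.Agent.X277.BD Crest.Agent.X262.Surf Finset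

variable {F : Type} [Field F] {n r : ℕ} {Λ Λ' : ℕ → Fin n → F}

/-- a minor of the first `r` rows -/
def dt (Λ : ℕ → Fin n → F) (r : ℕ) (c : Fin r → Fin n) : F :=
  (Matrix.of fun i j : Fin r => Λ i (c j)).det

theorem dt_congr (h : ∀ i < r, Λ' i = Λ i) (c : Fin r → Fin n) : dt Λ' r c = dt Λ r c := by
  unfold dt
  congr 1
  ext i j
  simp [h i i.2]

/-- the cofactors -/
def cof (Λ : ℕ → Fin n → F) (r : ℕ) (c : Fin (r + 1) → Fin n) (l : Fin (r + 1)) : F :=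
  (-1) ^ (r + l : ℕ) * dt Λ r fun i => c (l.succAbove i)

/-- the minor with last row `a` -/
def dl (Λ : ℕ → Fin n → F) (r : ℕ) (c : Fin (r + 1) → Fin n) : (Fin n → F) →ₗ[F] F :=
  ∑ l, cof Λ r c l • LinearMap.proj (c l)

theorem dl_apply (c : Fin (r + 1) → Fin n) (a : Fin n → F) :
    dl Λ r c a = ∑ l, cof Λ r c l * a (c l) := by
  simp [dl]

theorem dt_succ (Λ : ℕ → Fin n → F) (c : Fin (r + 1) → Fin n) :
    dt Λ (r + 1) c = dl Λ r c (Λ r) := by
  rw [dt, det_succ, dl_apply]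
  exact sum_congr rfl fun l _ => by rw [cof, dt]; ring

theorem dl_congr (h : ∀ i < r, Λ' i = Λ i) (c : Fin (r + 1) → Fin n) : dl Λ' r c = dl Λ r c := by
  simp only [dl, cof, dt_congr h]

theorem dt_update (c : Fin (r + 1) → Fin n) (a : Fin n → F) :
    dt (Function.update Λ r a) (r + 1) c = dl Λ r c a := by
  rw [dt_succ, Function.update_self, dl_congr fun i hi => Function.update_of_ne hi.ne _ _]

theorem dl_row (c : Fin (r + 1) → Fin n) {i : ℕ} (hi : i < r) : dl Λ r c (Λ i) = 0 := by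
  rw [← dt_update]
  refine Matrix.det_zero_of_row_eq (i := ⟨i, by omega⟩) (j := Fin.last r)
    (fun h => hi.ne (congrArg Fin.val h)) (funext fun j => ?_)
  simp [Function.update_of_ne hi.ne]

theorem dl_sub (c : Fin (r + 1) → Fin n) (a : Fin n → F) (μ : ℕ → F) :
    dl Λ r c (a - ∑ i ∈ range r, μ i • Λ i) = dl Λ r c a := by
  rw [map_sub, map_sum, sum_eq_zero, sub_zero]
  intro i hi
  rw [map_smul, dl_row c (mem_range.1 hi), smul_zero]

/-- the reduced row -/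
theorem exists_red {c : Fin r → Fin n} (hc : dt Λ r c ≠ 0) (a : Fin n → F) : ∃ μ : ℕ → F,
    ∀ j, (a - ∑ i ∈ range r, μ i • Λ i) j * dt Λ r c = dl Λ r (Fin.snoc c j) a := by
  classical
  let A : Matrix (Fin r) (Fin r) F := Matrix.of fun i j : Fin r => Λ i (c j)
  obtain ⟨μ, hμ⟩ := (Matrix.vecMul_surjective_iff_isUnit.2
    ((Matrix.isUnit_iff_isUnit_det A).2 (Ne.isUnit hc))) fun l => a (c l)
  let μ' : ℕ → F := fun i => if h : i < r then μ ⟨i, h⟩ else 0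
  refine ⟨μ', fun j => ?_⟩
  have h1 : ∀ l, (a - ∑ i ∈ range r, μ' i • Λ i) (c l) = 0 := fun l => by
    rw [Pi.sub_apply, ← congrFun hμ l, Finset.sum_apply, sum_range, sub_eq_zero]
    simp [Matrix.vecMul, dotProduct, A, μ']
  rw [← dl_sub _ a μ', dl_apply, Fin.sum_univ_castSucc]
  simp only [Fin.snoc_castSucc, h1, mul_zero, sum_const_zero]
  simp [cof, mul_comm, ← two_mul]

section Val

variable [Algebra ℂ F] {V : RZ ℂ F} {γ : V.1.ValueGroup} {v : ℕ → F}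

theorem dt_le (Λ : ℕ → Fin n → F) (c : Fin r → Fin n) (V : RZ ℂ F) :
    V.v (dt Λ r c) ≤ (Dm Λ r).val V := mem_Sec_mxf (dt Λ r) c V

theorem exists_dt (h : Rk Λ r) (V : RZ ℂ F) : ∃ c, V.v (dt Λ r c) = (Dm Λ r).val V :=
  exists_val_mxf (s := dt Λ r) h V

theorem Dm_congr (h : ∀ i < r, Λ' i = Λ i) : Dm Λ' r = Dm Λ r :=
  congrArg (mxf ℂ) (funext (dt_congr h))

theorem cof_le (c : Fin (r + 1) → Fin n) (l : Fin (r + 1)) :
    V.v (cof Λ r c l) ≤ (Dm Λ r).val V := by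
  rw [cof, map_mul, map_pow, Valuation.map_neg, map_one, one_pow, one_mul]
  exact dt_le _ _ V

/-- Laplace -/
theorem dl_le (c : Fin (r + 1) → Fin n) {a : Fin n → F} (ha : ∀ j, V.v (a j) ≤ γ) :
    V.v (dl Λ r c a) ≤ (Dm Λ r).val V * γ := by
  rw [dl_apply]
  exact V.v.map_sum_le fun l _ => by rw [map_mul]; exact mul_le_mul' (cof_le c l) (ha _)

/-- `μ` reduces the row `r` at `V` -/
def Red (Λ : ℕ → Fin n → F) (r : ℕ) (μ : ℕ → F) (V : RZ ℂ F) : Prop :=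
  ∀ j, V.v ((Λ r - ∑ i ∈ range r, μ i • Λ i) j) ≤ (Nm Λ r).val V

theorem exists_Red {c : Fin r → Fin n} (hc : dt Λ r c ≠ 0) :
    ∃ μ, ∀ V : RZ ℂ F, V.v (dt Λ r c) = (Dm Λ r).val V → Red Λ r μ V := by
  refine (exists_red hc (Λ r)).imp fun μ h V hV j => ?_
  rw [Nm, val_sub, le_div_iff₀ (val_pos _ V), ← hV, ← map_mul, h, ← dt_succ]
  exact dt_le _ _ V

theorem exists_Red' (h : Rk Λ r) (V : RZ ℂ F) : ∃ μ, Red Λ r μ V := by
  obtain ⟨c, hc⟩ := exists_dt h V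
  exact (exists_Red (ne_of_val hc)).imp fun μ h => h V hc

/-- the first `r` entries of `v` lie in the lattice of the columns, twisted by `γ` -/
def In (Λ : ℕ → Fin n → F) (r : ℕ) {V : RZ ℂ F} (γ : V.1.ValueGroup) (v : ℕ → F) : Prop :=
  ∃ τ : Fin n → F, (∀ j, V.v (τ j) ≤ γ) ∧ ∀ i < r, v i = ∑ j, τ j * Λ i j

theorem In.mono {r' : ℕ} {γ' : V.1.ValueGroup} (h : In Λ r γ v) (hr : r' ≤ r) (hγ : γ ≤ γ') :
    In Λ r' γ' v := h.imp fun _ h => ⟨fun j => (h.1 j).trans hγ, fun i hi => h.2 i (hi.trans_le hr)⟩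

theorem In.congr {v' : ℕ → F} (h : In Λ r γ v) (h' : ∀ i < r, v' i = v i) : In Λ r γ v' :=
  h.imp fun _ h => ⟨h.1, fun i hi => (h' i hi).trans (h.2 i hi)⟩

theorem in_zero (h : ∀ i < r, v i = 0) : In Λ r γ v := ⟨0, by simp, by simpa using h⟩

theorem In.add {v' : ℕ → F} (h : In Λ r γ v) (h' : In Λ r γ v') : In Λ r γ (v + v') := by
  obtain ⟨τ, h1, h2⟩ := h
  obtain ⟨τ', h3, h4⟩ := h'
  refine ⟨τ + τ', fun j => (V.v.map_add _ _).trans (max_le (h1 j) (h3 j)), fun i hi => ?_⟩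
  simp only [Pi.add_apply, h2 i hi, h4 i hi, add_mul, sum_add_distrib]

theorem In.smul (h : In Λ r γ v) (c : ℂ) : In Λ r γ (c • v) := by
  obtain ⟨τ, h1, h2⟩ := h
  refine ⟨c • τ, fun j => (V.v_smul_le c _).trans (h1 j), fun i hi => ?_⟩
  simp only [Pi.smul_apply, h2 i hi, smul_sum, smul_mul_assoc]

/-- the reduced entry -/
def rd (r : ℕ) (μ : ℕ → F) : (ℕ → F) →ₗ[F] F :=
  LinearMap.proj (φ := fun _ => F) r -
    ∑ i ∈ range r, μ i • LinearMap.proj (R := F) (φ := fun _ => F) i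

omit [Algebra ℂ F] in
theorem rd_apply (μ v : ℕ → F) : rd r μ v = v r - ∑ i ∈ range r, μ i * v i := by simp [rd]

omit [Algebra ℂ F] in
theorem rd_sub {μ v v' : ℕ → F} (h : ∀ i < r, v i = v' i) : rd r μ v - rd r μ v' = v r - v' r := by
  rw [rd_apply, rd_apply, sum_congr rfl fun i hi => by rw [h i (mem_range.1 hi)]]
  ring

omit [Algebra ℂ F] in
theorem rd_col (μ : ℕ → F) (τ : Fin n → F) : rd r μ (fun i => ∑ j, τ j * Λ i j) =
    ∑ j, τ j * (Λ r - ∑ i ∈ range r, μ i • Λ i) j := by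
  simp only [rd_apply, Pi.sub_apply, Finset.sum_apply, Pi.smul_apply, smul_eq_mul, mul_sub,
    sum_sub_distrib, mul_sum]
  rw [sum_comm]
  exact congrArg _ (sum_congr rfl fun j _ => sum_congr rfl fun i _ => by ring)

theorem Red.col_le {μ : ℕ → F} (hμ : Red Λ r μ V) {τ : Fin n → F} (h : ∀ j, V.v (τ j) ≤ γ) :
    V.v (rd r μ fun i => ∑ j, τ j * Λ i j) ≤ (Nm Λ r).val V * γ := by
  rw [rd_col]
  exact V.v.map_sum_le fun j _ => by rw [map_mul, mul_comm]; exact mul_le_mul' (hμ j) (h j)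

theorem In.red_le (h : In Λ (r + 1) γ v) {μ : ℕ → F} (hμ : Red Λ r μ V) :
    V.v (rd r μ v) ≤ (Nm Λ r).val V * γ := by
  obtain ⟨τ, h1, h2⟩ := h
  have h3 := rd_sub (μ := μ) fun i (hi : i < r) => h2 i (by omega)
  rw [← h2 r r.lt_succ_self, sub_self, sub_eq_zero] at h3
  exact h3 ▸ hμ.col_le h1

/-- two reductions differ by a section of the graded piece -/
theorem In.red_sub (h : In Λ r γ v) {μ μ' : ℕ → F} (hμ : Red Λ r μ V) (hμ' : Red Λ r μ' V) :
    V.v (rd r μ v - rd r μ' v) ≤ (Nm Λ r).val V * γ := by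
  obtain ⟨τ, h1, h2⟩ := h
  have h3 := (rd_sub (μ := μ) h2).trans (rd_sub (μ := μ') h2).symm
  rw [sub_eq_sub_iff_sub_eq_sub] at h3
  exact h3 ▸ V.v.map_sub_le (hμ.col_le h1) (hμ'.col_le h1)

theorem in_succ (hk : Rk Λ (r + 1)) (h : In Λ r γ v) {μ : ℕ → F} (hμ : Red Λ r μ V)
    (hv : V.v (rd r μ v) ≤ (Nm Λ r).val V * γ) : In Λ (r + 1) γ v := by
  classical
  obtain ⟨τ, h1, h2⟩ := h
  obtain ⟨c, hc⟩ := exists_dt hk V
  have h0 := ne_of_val hc
  obtain ⟨u, hu⟩ : ∃ u, u = v r - ∑ j, τ j * Λ r j := ⟨_, rfl⟩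
  have h3 : V.v u ≤ (Nm Λ r).val V * γ := by
    rw [hu, ← rd_sub (μ := μ) h2]
    exact V.v.map_sub_le hv (hμ.col_le h1)
  let κ : Fin n → F := fun j => ∑ l, if c l = j then u / dt Λ (r + 1) c * cof Λ r c l else 0
  have h4 : ∀ a : Fin n → F, ∑ j, κ j * a j = u / dt Λ (r + 1) c * dl Λ r c a := fun a => by
    simp only [κ, sum_mul, ite_mul, zero_mul, dl_apply, mul_sum]
    rw [sum_comm]
    exact sum_congr rfl fun l _ => by rw [sum_ite_eq, if_pos (mem_univ _), mul_assoc]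
  refine ⟨τ + κ, fun j => V.v.map_add_le (h1 j) (V.v.map_sum_le fun l _ => ?_), fun i hi => ?_⟩
  · split_ifs
    · rw [map_mul, map_div₀, hc, div_mul_eq_mul_div, div_le_iff₀ (val_pos _ V)]
      refine (mul_le_mul' h3 (cof_le c l)).trans_eq ?_
      rw [Nm, val_sub, mul_right_comm, div_mul_cancel₀ _ (val_ne _ V), mul_comm]
    · simp
  · simp only [Pi.add_apply, add_mul, sum_add_distrib, h4]
    rcases (Nat.lt_succ_iff.1 hi).eq_or_lt with rfl | hi
    · rw [← dt_succ, div_mul_cancel₀ _ h0, hu, add_sub_cancel]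
    · rw [dl_row c hi, mul_zero, add_zero, h2 i hi]

end Val

end Crest.Agent.X262.Bun
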